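import Vale.Agent.P348.Main

open Vale.Agent.P348

theorem Vale.Agent.Results.P348.A_gap.result (S : Fin 3 → Matrix (Fin 3) (Fin 3) ℂ)
    (hS : ∀ a, (S a).IsHermitian)
    (hc : ∀ a b, S a * S b - S b * S a = Complex.I • ∑ c, (eps a b c : ℂ) • S c)
    (hq : ∑ a, S a * S a = (2 : ℂ) • 1) :
    (∃ γ : ℝ, 0 < γ ∧ ∀ L : ℕ, Even L → 4 ≤ L → ∃ E : ℝ, (E : ℂ) ∈ spectrum ℂ (ham S L) ∧
      ∀ μ ∈ spectrum ℂ (ham S L), μ = E ∨ E + γ ≤ μ.re) ∧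
    ∀ L : ℕ, Even L → 60 ≤ L → ∃ hH : (ham S L).IsHermitian,
      ∃ i0, ∀ i, i ≠ i0 → hH.eigenvalues i0 + 1 / 250 ≤ hH.eigenvalues i :=
  main S hS hc hq
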